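import Mathlib
import Vale.Agent.Lib.P058.helper90.SolCrit

namespace Vale.Agent.Results.P058.KitesSolubleCriterion

/-- A sufficient condition for a cyclic kite to lie in a finite set with a soluble transitive
group of isometries, and two families of kites that satisfy it.

For `σ > 0` and a real number `t` call four points `a`, `b`, `c`, `d` of a Euclidean space a
copy of `K(t)` if `|ab|² = |ad|² = 2σ²(1 - t)`, `|cb|² = |cd|² = 2σ²(1 + t)`, `|ac|² = 4σ²` and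
`|bd|² = 4σ²(1 - t²)`.  For `-1 < t < 1` these are the six squared distances of the cyclic kite
with circumradius `σ`, diameter `ac` and `cos θ = t`, where `θ` is the angle at the centre
between `a` and `b`.

Let `σ > 0` and let `t` be a real number such that one of the following holds.

1. There are a permutation `φ` of `{0, ..., N - 1}`, real numbers `v i` and signs `ε i`, `ε' i`,
   `η i` equal to `1` or `-1` such that `t ≠ 1`,
   `ε i * v (φ i) + ε' i * v (φ⁻¹ i) = (1 + t) * v i + (1 - t) * η i * v i` for all `i`, and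
   `η i = -1`, `v i ≠ 0` for some `i`.
2. `t = 2k / (3k + 2)` for some integer `k ≥ 1`.
3. `t = k / (3k + 2)` for some integer `k ≥ 1`.

Then there are a natural number `n`, a finite set `X` of points of `ℝⁿ` and a soluble group `G`
of isometries of `ℝⁿ` which maps `X` into itself and acts transitively on `X`, such that `X`
contains a copy of `K(t)`. -/
theorem result (t σ : ℝ) (hσ : 0 < σ)
    (h : (∃ (N : ℕ) (φ : Equiv.Perm (Fin N)) (v ε ε' η : Fin N → ℝ), t ≠ 1 ∧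
          (∀ i, ε i = 1 ∨ ε i = -1) ∧ (∀ i, ε' i = 1 ∨ ε' i = -1) ∧
          (∀ i, η i = 1 ∨ η i = -1) ∧
          (∀ i, ε i * v (φ i) + ε' i * v (φ.symm i)
            = (1 + t) * v i + (1 - t) * (η i * v i)) ∧
          ∃ i, η i = -1 ∧ v i ≠ 0) ∨
        (∃ k : ℕ, 1 ≤ k ∧ t = 2 * (k : ℝ) / (3 * (k : ℝ) + 2)) ∨
        (∃ k : ℕ, 1 ≤ k ∧ t = (k : ℝ) / (3 * (k : ℝ) + 2))) :
    ∃ (n : ℕ) (X : Set (EuclideanSpace ℝ (Fin n)))
      (G : Subgroup (EuclideanSpace ℝ (Fin n) ≃ᵢ EuclideanSpace ℝ (Fin n))),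
      X.Finite ∧ Group.IsSolvable G ∧
      (∀ g ∈ G, ∀ p ∈ X, g p ∈ X) ∧
      (∀ p ∈ X, ∀ q ∈ X, ∃ g ∈ G, g p = q) ∧
      ∃ a ∈ X, ∃ b ∈ X, ∃ c ∈ X, ∃ d ∈ X,
        dist a b ^ 2 = 2 * σ ^ 2 * (1 - t) ∧ dist a d ^ 2 = 2 * σ ^ 2 * (1 - t) ∧
        dist c b ^ 2 = 2 * σ ^ 2 * (1 + t) ∧ dist c d ^ 2 = 2 * σ ^ 2 * (1 + t) ∧
        dist a c ^ 2 = 4 * σ ^ 2 ∧ dist b d ^ 2 = 4 * σ ^ 2 * (1 - t ^ 2) := by
  rcases h with ⟨N, φ, v, ε, ε', η, ht, hε, hε', hη, hrel, hnd⟩ | ⟨k, hk, rfl⟩ | ⟨k, hk, rfl⟩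
  · exact Vale.Agent.Lib.P058.H90.sol_crit φ v ε ε' η t ht hε hε' hη hrel hnd σ hσ
  · have h0 : (3 * (k : ℝ) + 2) ≠ 0 := by positivity
    exact Vale.Agent.Lib.P058.H90.sol_family k hk 1 (Or.inl rfl)
      (2 * (k : ℝ) / (3 * (k : ℝ) + 2)) (by field_simp; ring) σ hσ
  · have h0 : (3 * (k : ℝ) + 2) ≠ 0 := by positivity
    exact Vale.Agent.Lib.P058.H90.sol_family k hk (-1) (Or.inr rfl)
      ((k : ℝ) / (3 * (k : ℝ) + 2)) (by field_simp; ring) σ hσ

end Vale.Agent.Results.P058.KitesSolubleCriterion
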