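import Mathlib
import Vale.Agent.Lib.P058.helper46.FinalR4

namespace Vale.Agent.Results.P058.KitesSolubleGroup

/-- Cyclic kites in finite sets with a soluble transitive group of isometries.

Let `α = π j / n` and `β = π k / n` with `0 < j`, `0 < k`, `2 j ≤ n`, `2 k ≤ n`, `j + k < n`
(so `0 < α, β ≤ π / 2`, not both `π / 2`), and let `σ > 0`.  Then there are a finite set `X` of
points of four-dimensional Euclidean space `ℝ⁴` and a soluble group `G` of isometries of `ℝ⁴`
which maps `X` into itself and acts transitively on `X`, such that `X` contains four points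
`a`, `b`, `c`, `d` with
`|ab| = |ad| = σ sin α`, `|cb| = |cd| = σ sin β`, `|ac| = σ √(sin² α + sin² β)` and
`|bd| = 2 σ sin α sin β / √(sin² α + sin² β)`.
These six distances are those of the planar kite with sides `σ sin α`, `σ sin α`, `σ sin β`,
`σ sin β` and right angles at `b` and `d` (the cyclic kite with these sides: `ac` is a diameter
of its circumcircle and `bd` is twice the altitude of the right triangle `abc`), so
`{a, b, c, d}` is congruent to that kite. -/
theorem result (n j k : ℕ) (hj : 0 < j) (hk : 0 < k) (hjn : 2 * j ≤ n) (hkn : 2 * k ≤ n)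
    (hjk : j + k < n) (σ : ℝ) (hσ : 0 < σ) :
    ∃ (X : Set (EuclideanSpace ℝ (Fin 4)))
      (G : Subgroup (EuclideanSpace ℝ (Fin 4) ≃ᵢ EuclideanSpace ℝ (Fin 4))),
      X.Finite ∧ Group.IsSolvable G ∧
      (∀ g ∈ G, ∀ p ∈ X, g p ∈ X) ∧
      (∀ p ∈ X, ∀ q ∈ X, ∃ g ∈ G, g p = q) ∧
      ∃ a ∈ X, ∃ b ∈ X, ∃ c ∈ X, ∃ d ∈ X,
        dist a b = σ * Real.sin (Real.pi * j / n) ∧ dist a d = σ * Real.sin (Real.pi * j / n) ∧
        dist c b = σ * Real.sin (Real.pi * k / n) ∧ dist c d = σ * Real.sin (Real.pi * k / n) ∧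
        dist a c = σ * Real.sqrt (Real.sin (Real.pi * j / n) ^ 2 + Real.sin (Real.pi * k / n) ^ 2) ∧
        dist b d = 2 * σ * Real.sin (Real.pi * j / n) * Real.sin (Real.pi * k / n)
          / Real.sqrt (Real.sin (Real.pi * j / n) ^ 2 + Real.sin (Real.pi * k / n) ^ 2) :=
  Vale.Agent.Lib.P058.H46.kite_soluble_R4 n j k hj hk hjn hkn hjk σ hσ

end Vale.Agent.Results.P058.KitesSolubleGroup
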