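import Mathlib
import Vale.Agent.Lib.P058.helper46.NotSubB
import Vale.Agent.Lib.P058.helper46.NotSubC
import Vale.Agent.Lib.P058.helper46.RatT

namespace Vale.Agent.Results.P058.KitesTwoSided

/-- Cyclic kites and finite transitive sets: a sufficient and a necessary condition.

For `σ > 0` and a real number `t` call four points `a`, `b`, `c`, `d` of a Euclidean space a
copy of `K(t)` if `|ab|² = |ad|² = 2σ²(1 - t)`, `|cb|² = |cd|² = 2σ²(1 + t)`, `|ac|² = 4σ²` and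
`|bd|² = 4σ²(1 - t²)`.  For `-1 < t < 1` these are the six squared distances of the cyclic kite
with circumradius `σ`, diameter `ac` and `cos θ = t`, where `θ` is the angle at the centre
between `a` and `b` (vertices `a = σ`, `b = σ e^{iθ}`, `c = -σ`, `d = σ e^{-iθ}` in the complex
plane).

1. For every rational `t` with `|t| < 1` and every `σ > 0` there are a natural number `n`, a
   finite set `X` of points of `ℝⁿ` and a group `G` of isometries of `ℝⁿ` which maps `X` into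
   itself and acts transitively on `X`, such that `X` contains a copy of `K(t)`.
2. Let `t` be a real number such that some ring homomorphism `τ` from the field `ℚ(t)` generated
   by `t` to `ℝ` has `|τ(t)| > 1`.  Then no finite subset `X` of any `ℝⁿ` such that for all
   `p`, `q` in `X` some isometry of `ℝⁿ` maps `X` into itself and `p` to `q` contains a copy of
   `K(t)`, for any `σ > 0`.
3. The same conclusion for `t = u + v √D` with `u`, `v` rational, `D` a natural number, `√D`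
   irrational and `|u - v √D| > 1` (for example `t = √2 - 1`). -/
theorem result :
    (∀ t : ℚ, |t| < 1 → ∀ σ : ℝ, 0 < σ →
      ∃ (n : ℕ) (X : Set (EuclideanSpace ℝ (Fin n)))
        (G : Subgroup (EuclideanSpace ℝ (Fin n) ≃ᵢ EuclideanSpace ℝ (Fin n))),
        X.Finite ∧
        (∀ g ∈ G, ∀ p ∈ X, g p ∈ X) ∧
        (∀ p ∈ X, ∀ q ∈ X, ∃ g ∈ G, g p = q) ∧
        ∃ a ∈ X, ∃ b ∈ X, ∃ c ∈ X, ∃ d ∈ X,
          dist a b ^ 2 = 2 * σ ^ 2 * (1 - (t : ℝ)) ∧ dist a d ^ 2 = 2 * σ ^ 2 * (1 - (t : ℝ)) ∧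
          dist c b ^ 2 = 2 * σ ^ 2 * (1 + (t : ℝ)) ∧ dist c d ^ 2 = 2 * σ ^ 2 * (1 + (t : ℝ)) ∧
          dist a c ^ 2 = 4 * σ ^ 2 ∧ dist b d ^ 2 = 4 * σ ^ 2 * (1 - (t : ℝ) ^ 2)) ∧
    (∀ (t : ℝ) (τ : IntermediateField.adjoin ℚ ({t} : Set ℝ) →+* ℝ),
      1 < |τ (IntermediateField.AdjoinSimple.gen ℚ t)| →
      ∀ (n : ℕ) (X : Set (EuclideanSpace ℝ (Fin n))), X.Finite →
      (∀ p ∈ X, ∀ q ∈ X, ∃ f : EuclideanSpace ℝ (Fin n) ≃ᵢ EuclideanSpace ℝ (Fin n),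
        (∀ x ∈ X, f x ∈ X) ∧ f p = q) →
      ∀ σ : ℝ, 0 < σ → ∀ a ∈ X, ∀ b ∈ X, ∀ c ∈ X, ∀ d ∈ X,
      ¬ (dist a b ^ 2 = 2 * σ ^ 2 * (1 - t) ∧ dist a d ^ 2 = 2 * σ ^ 2 * (1 - t) ∧
         dist c b ^ 2 = 2 * σ ^ 2 * (1 + t) ∧ dist c d ^ 2 = 2 * σ ^ 2 * (1 + t) ∧
         dist a c ^ 2 = 4 * σ ^ 2 ∧ dist b d ^ 2 = 4 * σ ^ 2 * (1 - t ^ 2))) ∧
    (∀ (u v : ℚ) (D : ℕ), Irrational (Real.sqrt D) → 1 < |(u : ℝ) - v * Real.sqrt D| →
      ∀ (n : ℕ) (X : Set (EuclideanSpace ℝ (Fin n))), X.Finite →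
      (∀ p ∈ X, ∀ q ∈ X, ∃ f : EuclideanSpace ℝ (Fin n) ≃ᵢ EuclideanSpace ℝ (Fin n),
        (∀ x ∈ X, f x ∈ X) ∧ f p = q) →
      ∀ σ : ℝ, 0 < σ → ∀ a ∈ X, ∀ b ∈ X, ∀ c ∈ X, ∀ d ∈ X,
      ¬ (dist a b ^ 2 = 2 * σ ^ 2 * (1 - ((u : ℝ) + v * Real.sqrt D)) ∧
         dist a d ^ 2 = 2 * σ ^ 2 * (1 - ((u : ℝ) + v * Real.sqrt D)) ∧
         dist c b ^ 2 = 2 * σ ^ 2 * (1 + ((u : ℝ) + v * Real.sqrt D)) ∧
         dist c d ^ 2 = 2 * σ ^ 2 * (1 + ((u : ℝ) + v * Real.sqrt D)) ∧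
         dist a c ^ 2 = 4 * σ ^ 2 ∧
         dist b d ^ 2 = 4 * σ ^ 2 * (1 - ((u : ℝ) + v * Real.sqrt D) ^ 2))) := by
  refine ⟨?_, ?_, ?_⟩
  · intro t ht σ hσ
    exact Vale.Agent.Lib.P058.NotSub.rat_kite_cos t ht σ hσ
  · intro t τ h1 n X hfin htr σ hσ a ha b hb c hc d hd
    rintro ⟨hab, had, hcb, hcd, hac, hbd⟩
    exact Vale.Agent.Lib.P058.NotSub.kite_not_subtransitive_gen t τ h1 n X hfin htr σ hσ a b c d
      ha hb hc hd hab had hcb hcd hac hbd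
  · intro u v D hD h1 n X hfin htr σ hσ a ha b hb c hc d hd
    rintro ⟨hab, had, hcb, hcd, hac, hbd⟩
    exact Vale.Agent.Lib.P058.NotSub.kite_not_subtransitive u v D hD h1 n X hfin htr σ hσ a b c d
      ha hb hc hd hab had hcb hcd hac hbd

end Vale.Agent.Results.P058.KitesTwoSided
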