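import Mathlib
import Vale.Agent.Lib.P058.helper27.SignedOrbit
import Vale.Agent.Lib.P058.helper90.CycKite

namespace Vale.Agent.Results.P058.KitesUnitFractions

/-- Cyclic kites with squared side ratio `s : (2 - s)`, `s = 1 / m1 + 1 / m2`, in finite sets
with a soluble transitive group of isometries.

Let `m1`, `m2` be positive integers with `m1 + m2 ≥ 3`, let `s = 1 / m1 + 1 / m2` (so
`0 < s < 2`) and let `σ > 0`.  Then there are a finite set `X` of points of the Euclidean space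
`ℝ^(m1 + m2)` and a soluble group `G` of isometries of that space which maps `X` into itself
and acts transitively on `X`, such that `X` contains four points `a`, `b`, `c`, `d` with
`|ab| = |ad| = σ √s`, `|cb| = |cd| = σ √(2 - s)`, `|ac| = σ √2` and `|bd| = σ √(2 s (2 - s))`.
These six distances are those of the planar kite with sides `σ √s`, `σ √s`, `σ √(2 - s)`,
`σ √(2 - s)` and right angles at `b` and `d` (the cyclic kite with these sides: `ac` is a
diameter of its circumcircle and `bd` is twice the altitude of the right triangle `abc`), so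
`{a, b, c, d}` is congruent to that kite.  For `m1 = m2 = N + 1` the sides are in the ratio
`1 : √N`. -/
theorem result (m1 m2 : ℕ) (h1 : 1 ≤ m1) (h2 : 1 ≤ m2) (h3 : 3 ≤ m1 + m2) (σ : ℝ)
    (hσ : 0 < σ) :
    ∃ (X : Set (EuclideanSpace ℝ (Fin (m1 + m2))))
      (G : Subgroup (EuclideanSpace ℝ (Fin (m1 + m2)) ≃ᵢ EuclideanSpace ℝ (Fin (m1 + m2)))),
      X.Finite ∧ Group.IsSolvable G ∧
      (∀ g ∈ G, ∀ p ∈ X, g p ∈ X) ∧
      (∀ p ∈ X, ∀ q ∈ X, ∃ g ∈ G, g p = q) ∧
      ∃ a ∈ X, ∃ b ∈ X, ∃ c ∈ X, ∃ d ∈ X,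
        dist a b = σ * Real.sqrt (1 / (m1 : ℝ) + 1 / (m2 : ℝ)) ∧
        dist a d = σ * Real.sqrt (1 / (m1 : ℝ) + 1 / (m2 : ℝ)) ∧
        dist c b = σ * Real.sqrt (2 - 1 / (m1 : ℝ) - 1 / (m2 : ℝ)) ∧
        dist c d = σ * Real.sqrt (2 - 1 / (m1 : ℝ) - 1 / (m2 : ℝ)) ∧
        dist a c = σ * Real.sqrt 2 ∧
        dist b d = σ * Real.sqrt
          (2 * (1 / (m1 : ℝ) + 1 / (m2 : ℝ)) * (2 - 1 / (m1 : ℝ) - 1 / (m2 : ℝ))) :=
  Vale.Agent.Lib.P058.H90.cyc_kite_of
    (fun _ π v => Vale.Agent.Lib.P058.H27.soluble_signed_orbit π v) m1 m2 h1 h2 h3 σ hσ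

end Vale.Agent.Results.P058.KitesUnitFractions
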